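import Vale.Agent.Lib.P328.helper57.Window

namespace Vale.Agent.Lib.P328.helper57

open Finset

/-- Level counts after adding a column of capacity `C`. -/
def addW (C : ℕ) (w : ℤ → ℝ) (r : ℤ) : ℝ := ∑ k ∈ range (C + 1), w (r - k)

/-- First-order wall sums after adding a column of capacity `C` and weight `t`. -/
def addL (C : ℕ) (t : ℝ) (w l : ℤ → ℝ) (r : ℤ) : ℝ :=
  ∑ k ∈ range (C + 1), l (r - k) + t * w (r - C)

/-- Second-order wall sums after adding a column of capacity `C` and weight `t`. -/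
def addQ (C : ℕ) (t : ℝ) (w l q : ℤ → ℝ) (r : ℤ) : ℝ :=
  ∑ k ∈ range (C + 1), q (r - k) + 2 * t * l (r - C)
    + t ^ 2 * (w (r - C) - if 1 ≤ C then w (r - C + 1) else 0)

/-- The quadratic form of the three sequences at level `ρ`. -/
def Tq (w l q : ℤ → ℝ) (ρ : ℤ) (x y z : ℝ) : ℝ :=
  w ρ * x ^ 2 + 2 * w (ρ + 1) * x * y + w (ρ + 2) * y ^ 2 + 2 * l ρ * x * z
    + 2 * l (ρ + 1) * y * z + q ρ * z ^ 2

/-- The linear form (first row) at level `ρ`. -/
def xi (w l : ℤ → ℝ) (ρ : ℤ) (x y z : ℝ) : ℝ := w ρ * x + w (ρ + 1) * y + l ρ * z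

/-- The inductive invariant: positive on `[0, N]`, zero outside, and at every level of the
support the quadratic form is dominated by the square of its first row. -/
def Good (N : ℕ) (w l q : ℤ → ℝ) : Prop :=
  (∀ ρ : ℤ, 0 ≤ ρ → ρ ≤ N → 0 < w ρ) ∧
  (∀ ρ : ℤ, ρ < 0 → w ρ = 0 ∧ l ρ = 0 ∧ q ρ = 0) ∧
  (∀ ρ : ℤ, (N : ℤ) < ρ → w ρ = 0 ∧ l ρ = 0 ∧ q ρ = 0) ∧
  (∀ ρ : ℤ, 0 ≤ ρ → ρ ≤ N → ∀ x y z : ℝ,
    w ρ * (w ρ * x ^ 2 + 2 * w (ρ + 1) * x * y + w (ρ + 2) * y ^ 2 + 2 * l ρ * x * z
      + 2 * l (ρ + 1) * y * z + q ρ * z ^ 2) ≤ (w ρ * x + w (ρ + 1) * y + l ρ * z) ^ 2)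

theorem addW_succ (C : ℕ) (w : ℤ → ℝ) (r : ℤ) :
    addW C w (r + 1) = ∑ k ∈ range (C + 1), w (r - k + 1) := by
  unfold addW
  apply sum_congr rfl
  intro k _
  congr 1
  ring

theorem addW_succ2 (C : ℕ) (w : ℤ → ℝ) (r : ℤ) :
    addW C w (r + 2) = ∑ k ∈ range (C + 1), w (r - k + 2) := by
  unfold addW
  apply sum_congr rfl
  intro k _
  congr 1
  ring

theorem addL_succ (C : ℕ) (t : ℝ) (w l : ℤ → ℝ) (r : ℤ) :
    addL C t w l (r + 1) = ∑ k ∈ range (C + 1), l (r - k + 1) + t * w (r - C + 1) := by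
  unfold addL
  have h1 : ∑ k ∈ range (C + 1), l (r + 1 - k) = ∑ k ∈ range (C + 1), l (r - k + 1) := by
    apply sum_congr rfl
    intro k _
    congr 1
    ring
  have h2 : r + 1 - (C : ℤ) = r - C + 1 := by ring
  rw [h1, h2]

/-- The new quadratic form as a window sum of old ones plus the wall terms. -/
theorem tnew_eq (C : ℕ) (t : ℝ) (w l q : ℤ → ℝ) (r : ℤ) (x y z : ℝ) :
    Tq (addW C w) (addL C t w l) (addQ C t w l q) r x y z
      = ∑ k ∈ range (C + 1), Tq w l q (r - k) x y z
        + 2 * (t * z) * xi w l (r - C) x y z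
        + (t * z) ^ 2 * (w (r - C) - if 1 ≤ C then w (r - C + 1) else 0) := by
  have hs : ∑ k ∈ range (C + 1), Tq w l q (r - k) x y z
      = (∑ k ∈ range (C + 1), w (r - k)) * x ^ 2
        + 2 * (∑ k ∈ range (C + 1), w (r - k + 1)) * x * y
        + (∑ k ∈ range (C + 1), w (r - k + 2)) * y ^ 2
        + 2 * (∑ k ∈ range (C + 1), l (r - k)) * x * z
        + 2 * (∑ k ∈ range (C + 1), l (r - k + 1)) * y * z
        + (∑ k ∈ range (C + 1), q (r - k)) * z ^ 2 := by
    simp only [Tq, sum_add_distrib, sum_mul, mul_sum]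
  rw [hs]
  simp only [Tq, xi]
  rw [addW_succ, addW_succ2, addL_succ]
  simp only [addW, addL, addQ]
  ring

/-- The new linear form as a window sum of old ones plus the wall term. -/
theorem xinew_eq (C : ℕ) (t : ℝ) (w l : ℤ → ℝ) (r : ℤ) (x y z : ℝ) :
    xi (addW C w) (addL C t w l) r x y z
      = ∑ k ∈ range (C + 1), xi w l (r - k) x y z + (t * z) * w (r - C) := by
  have hs : ∑ k ∈ range (C + 1), xi w l (r - k) x y z
      = (∑ k ∈ range (C + 1), w (r - k)) * x
        + (∑ k ∈ range (C + 1), w (r - k + 1)) * y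
        + (∑ k ∈ range (C + 1), l (r - k)) * z := by
    simp only [xi, sum_add_distrib, sum_mul]
  rw [hs]
  simp only [xi]
  rw [addW_succ]
  simp only [addW, addL]
  ring

/-- Reindexing a descending window sum as an ascending one, dropping zero terms. -/
theorem sum_range_window (f : ℤ → ℝ) (C : ℕ) (r lo : ℤ) (m : ℕ)
    (hlo : r - C ≤ lo) (hhi : lo + m ≤ r)
    (h0 : ∀ ρ : ℤ, r - C ≤ ρ → ρ < lo → f ρ = 0)
    (h1 : ∀ ρ : ℤ, lo + m < ρ → ρ ≤ r → f ρ = 0) :
    ∑ k ∈ range (C + 1), f (r - k) = ∑ i ∈ range (m + 1), f (lo + i) := by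
  have e1 : ∑ k ∈ range (C + 1), f (r - k) = ∑ ρ ∈ Finset.Icc (r - C) r, f ρ := by
    refine sum_nbij' (fun k : ℕ => r - (k : ℤ)) (fun ρ : ℤ => (r - ρ).toNat) ?_ ?_ ?_ ?_ ?_
    · intro k hk
      have := mem_range.mp hk
      simp only [mem_Icc]
      omega
    · intro ρ hρ
      have := mem_Icc.mp hρ
      simp only [mem_range]
      omega
    · intro k hk
      simp
    · intro ρ hρ
      have := mem_Icc.mp hρ
      omega
    · intro k _
      rfl
  have e2 : ∑ i ∈ range (m + 1), f (lo + i) = ∑ ρ ∈ Finset.Icc lo (lo + m), f ρ := by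
    refine sum_nbij' (fun i : ℕ => lo + (i : ℤ)) (fun ρ : ℤ => (ρ - lo).toNat) ?_ ?_ ?_ ?_ ?_
    · intro i hi
      have := mem_range.mp hi
      simp only [mem_Icc]
      omega
    · intro ρ hρ
      have := mem_Icc.mp hρ
      simp only [mem_range]
      omega
    · intro i hi
      simp
    · intro ρ hρ
      have := mem_Icc.mp hρ
      omega
    · intro i _
      rfl
  rw [e1, e2]
  symm
  apply sum_subset
  · intro ρ hρ
    have := mem_Icc.mp hρ
    simp only [mem_Icc]
    omega
  · intro ρ hρ hρ'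
    have h2 := mem_Icc.mp hρ
    simp only [mem_Icc, not_and, not_le] at hρ'
    by_cases hc : ρ < lo
    · exact h0 ρ h2.1 hc
    · exact h1 ρ (hρ' (by omega)) h2.2

/-- A real binary quadratic form that is nonnegative has nonpositive discriminant. -/
theorem disc {α β γ : ℝ} (h : ∀ y z : ℝ, 0 ≤ α * y ^ 2 - 2 * β * y * z + γ * z ^ 2) :
    β ^ 2 ≤ α * γ := by
  have hα : 0 ≤ α := by
    have := h 1 0
    linarith
  rcases hα.eq_or_lt with h0 | hpos
  · have h4 := h (β * (γ + 1)) (2 * β ^ 2)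
    rw [← h0] at h4
    have h5 : β ^ 4 ≤ 0 := by nlinarith
    have h6 : β ^ 4 = 0 := le_antisymm h5 (by positivity)
    have hβ : β = 0 := by
      rcases pow_eq_zero_iff (n := 4) (by norm_num) |>.mp h6 with h7
      exact h7
    rw [← h0, hβ]
    simp
  · have h4 := h β α
    by_contra hlt
    have hlt' := not_le.mp hlt
    nlinarith

/-- The window lemma in the form used by the column step. -/
theorem window_xi (m : ℕ) (w ξ P : ℕ → ℝ) (σ : ℝ)
    (hw : ∀ i, i ≤ m → 0 < w i) (hw1 : 0 ≤ w (m + 1))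
    (hP : ∀ i, i ≤ m → 0 ≤ P i)
    (hlc : ∀ i, i < m → w i * w (i + 2) ≤ w (i + 1) ^ 2)
    (hinc : ∀ i, i < m → (w i * ξ (i + 1) - w (i + 1) * ξ i) ^ 2
        ≤ (w (i + 1) ^ 2 - w i * w (i + 2)) * (w i * P i)) :
    (∑ i ∈ range (m + 1), w i) *
        (∑ i ∈ range (m + 1), (ξ i ^ 2 / w i - P i) + 2 * σ * ξ 0 + σ ^ 2 * (w 0 - w 1))
      ≤ (∑ i ∈ range (m + 1), ξ i + σ * w 0) ^ 2 := by
  have hwne : ∀ i, i ≤ m → w i ≠ 0 := fun i hi => (hw i hi).ne'
  have key := window m w (fun i => w (i + 1) / w i) (fun i => ξ i / w i)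
    (fun i => P i / w (i + 1)) σ hw hw1
    (fun k hk => div_mul_cancel₀ _ (hwne k hk))
    (fun k hk => by
      have h0 := hw k (by omega)
      have h1 := hw (k + 1) (by omega)
      have h2 := hlc k hk
      show w (k + 1 + 1) / w (k + 1) ≤ w (k + 1) / w k
      rw [div_le_div_iff₀ h1 h0]
      nlinarith)
    (fun k hk => div_nonneg (hP k (by omega)) (hw (k + 1) (by omega)).le)
    (fun k hk => by
      have h0 := hw k (by omega)
      have h1 := hw (k + 1) (by omega)
      have e1 : (ξ (k + 1) / w (k + 1) - ξ k / w k) ^ 2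
          = (w k * ξ (k + 1) - w (k + 1) * ξ k) ^ 2 / (w k * w (k + 1)) ^ 2 := by
        field_simp
      have e2 : (w (k + 1) / w k - w (k + 1 + 1) / w (k + 1)) * (P k / w (k + 1))
          = (w (k + 1) ^ 2 - w k * w (k + 2)) * (w k * P k) / (w k * w (k + 1)) ^ 2 := by
        field_simp
      show (ξ (k + 1) / w (k + 1) - ξ k / w k) ^ 2
        ≤ (w (k + 1) / w k - w (k + 1 + 1) / w (k + 1)) * (P k / w (k + 1))
      rw [e1, e2]
      exact div_le_div_of_nonneg_right (hinc k hk) (by positivity))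
  have hs2 : ∑ k ∈ range (m + 1), w k * (ξ k / w k + if k = 0 then σ else 0) ^ 2
      = ∑ k ∈ range (m + 1), ξ k ^ 2 / w k + 2 * σ * ξ 0 + σ ^ 2 * w 0 := by
    have hterm : ∀ k ∈ range (m + 1), w k * (ξ k / w k + if k = 0 then σ else 0) ^ 2
        = ξ k ^ 2 / w k + (if k = 0 then 2 * σ * ξ 0 + σ ^ 2 * w 0 else 0) := by
      intro k hk
      have hk' := hwne k (by have := mem_range.mp hk; omega)
      by_cases h : k = 0
      · subst h
        simp only [if_true]
        field_simp
        ring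
      · simp only [h, if_false, add_zero]
        field_simp
    rw [sum_congr rfl hterm, sum_add_distrib]
    simp
    ring
  have hs1 : ∑ k ∈ range (m + 1), w k * (ξ k / w k + if k = 0 then σ else 0)
      = ∑ k ∈ range (m + 1), ξ k + σ * w 0 := by
    have hterm : ∀ k ∈ range (m + 1), w k * (ξ k / w k + if k = 0 then σ else 0)
        = ξ k + (if k = 0 then σ * w 0 else 0) := by
      intro k hk
      have hk' := hwne k (by have := mem_range.mp hk; omega)
      by_cases h : k = 0
      · subst h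
        simp only [if_true]
        field_simp
      · simp only [h, if_false, add_zero]
        field_simp
    rw [sum_congr rfl hterm, sum_add_distrib]
    simp
  have hs3 : ∑ k ∈ range m, w (k + 1) * (P k / w (k + 1)) = ∑ k ∈ range m, P k := by
    apply sum_congr rfl
    intro k hk
    have hk' := hwne (k + 1) (by have := mem_range.mp hk; omega)
    field_simp
  rw [hs2, hs1, hs3] at key
  have hW : 0 ≤ ∑ i ∈ range (m + 1), w i :=
    sum_nonneg (fun i hi => (hw i (by have := mem_range.mp hi; omega)).le)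
  have hPm := hP m le_rfl
  have hsplit : ∑ i ∈ range (m + 1), (ξ i ^ 2 / w i - P i)
      = ∑ i ∈ range (m + 1), ξ i ^ 2 / w i - (∑ i ∈ range m, P i + P m) := by
    rw [sum_sub_distrib, sum_range_succ (fun i => P i) m]
  rw [hsplit]
  nlinarith [mul_nonneg hW hPm]

theorem Good.nonneg {N : ℕ} {w l q : ℤ → ℝ} (hG : Good N w l q) (ρ : ℤ) : 0 ≤ w ρ := by
  obtain ⟨hpos, hneg, hbig, -⟩ := hG
  by_cases h0 : ρ < 0
  · rw [(hneg ρ h0).1]
  · by_cases h1 : (N : ℤ) < ρ
    · rw [(hbig ρ h1).1]
    · exact (hpos ρ (by omega) (by omega)).le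

/-- The window inequality for a window `[lo, lo + m]` inside the support. -/
theorem window_good {N : ℕ} {w l q : ℤ → ℝ} (hG : Good N w l q) (lo : ℤ) (m : ℕ)
    (hlo : 0 ≤ lo) (hhi : lo + m ≤ N) (σ x y z : ℝ) :
    (∑ i ∈ range (m + 1), w (lo + i)) *
        (∑ i ∈ range (m + 1), Tq w l q (lo + i) x y z + 2 * σ * xi w l lo x y z
          + σ ^ 2 * (w lo - w (lo + 1)))
      ≤ (∑ i ∈ range (m + 1), xi w l (lo + i) x y z + σ * w lo) ^ 2 := by
  have hnn := hG.nonneg
  obtain ⟨hpos, hneg, hbig, hS⟩ := hG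
  have hwp : ∀ i : ℕ, i ≤ m → 0 < w (lo + i) := fun i hi => hpos _ (by omega) (by omega)
  have key := window_xi m (fun i : ℕ => w (lo + i)) (fun i : ℕ => xi w l (lo + i) x y z)
    (fun i : ℕ => (xi w l (lo + i) x y z) ^ 2 / w (lo + i) - Tq w l q (lo + i) x y z) σ
    hwp (hnn _)
    (fun i hi => by
      have h := hS (lo + i) (by omega) (by omega) x y z
      have hp := hwp i hi
      have h' : Tq w l q (lo + i) x y z * w (lo + i) ≤ (xi w l (lo + i) x y z) ^ 2 := by
        unfold Tq xi
        nlinarith [h]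
      exact sub_nonneg.mpr ((le_div_iff₀ hp).mpr h'))
    (fun i hi => by
      have e1 : lo + ((i + 1 : ℕ) : ℤ) = lo + i + 1 := by push_cast; ring
      have e2 : lo + ((i + 2 : ℕ) : ℤ) = lo + i + 2 := by push_cast; ring
      have h := hS (lo + i) (by omega) (by omega) 0 1 0
      show w (lo + (i : ℤ)) * w (lo + ((i + 2 : ℕ) : ℤ)) ≤ w (lo + ((i + 1 : ℕ) : ℤ)) ^ 2
      rw [e1, e2]
      nlinarith [h])
    (fun i hi => by
      have e1 : lo + ((i + 1 : ℕ) : ℤ) = lo + i + 1 := by push_cast; ring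
      have e2 : lo + ((i + 2 : ℕ) : ℤ) = lo + i + 2 := by push_cast; ring
      have e3 : lo + (i : ℤ) + 1 + 1 = lo + i + 2 := by ring
      have hp := hwp i (by omega)
      have hSi := hS (lo + i) (by omega) (by omega)
      show (w (lo + (i : ℤ)) * xi w l (lo + ((i + 1 : ℕ) : ℤ)) x y z
            - w (lo + ((i + 1 : ℕ) : ℤ)) * xi w l (lo + (i : ℤ)) x y z) ^ 2
          ≤ (w (lo + ((i + 1 : ℕ) : ℤ)) ^ 2 - w (lo + (i : ℤ)) * w (lo + ((i + 2 : ℕ) : ℤ)))
            * (w (lo + (i : ℤ)) * ((xi w l (lo + (i : ℤ)) x y z) ^ 2 / w (lo + (i : ℤ))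
                - Tq w l q (lo + (i : ℤ)) x y z))
      rw [e1, e2]
      have hmul : w (lo + (i : ℤ)) * ((xi w l (lo + (i : ℤ)) x y z) ^ 2 / w (lo + (i : ℤ))
            - Tq w l q (lo + (i : ℤ)) x y z)
          = (xi w l (lo + (i : ℤ)) x y z) ^ 2 - w (lo + (i : ℤ)) * Tq w l q (lo + (i : ℤ)) x y z := by
        field_simp
      rw [hmul]
      unfold xi Tq
      rw [e3]
      generalize w (lo + (i : ℤ)) = a0 at *
      generalize w (lo + (i : ℤ) + 1) = a1 at *
      generalize w (lo + (i : ℤ) + 2) = a2 at *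
      generalize l (lo + (i : ℤ)) = l0 at *
      generalize l (lo + (i : ℤ) + 1) = l1 at *
      generalize q (lo + (i : ℤ)) = q0 at *
      have hd : (a0 * l1 - a1 * l0) ^ 2 ≤ (a1 ^ 2 - a0 * a2) * (l0 ^ 2 - a0 * q0) := by
        apply disc
        intro y' z'
        have := hSi 0 y' z'
        nlinarith [this]
      nlinarith [mul_nonneg (sub_nonneg.mpr hd) (sq_nonneg z)])
  simp only [sub_sub_cancel, Nat.cast_zero, add_zero, Nat.cast_one] at key
  exact key

theorem peel1 (f : ℤ → ℝ) (m : ℕ) :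
    ∑ i ∈ range (m + 1 + 1), f (-1 + i) = ∑ i ∈ range (m + 1), f (0 + i) + f (-1) := by
  rw [sum_range_succ']
  have h : ∀ i : ℕ, (-1 : ℤ) + ((i + 1 : ℕ) : ℤ) = 0 + i := by
    intro i
    push_cast
    ring
  simp only [h]
  norm_num

theorem peel2 (f : ℤ → ℝ) (m : ℕ) :
    ∑ i ∈ range (m + 1 + 1 + 1), f (-2 + i)
      = ∑ i ∈ range (m + 1), f (0 + i) + f (-1) + f (-2) := by
  rw [sum_range_succ', sum_range_succ']
  have h : ∀ i : ℕ, (-2 : ℤ) + ((i + 1 + 1 : ℕ) : ℤ) = 0 + i := by
    intro i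
    push_cast
    ring
  simp only [h]
  norm_num

theorem good_base : Good 0 (fun ρ : ℤ => if ρ = 0 then (1 : ℝ) else 0) (fun _ => 0) (fun _ => 0) := by
  refine ⟨?_, ?_, ?_, ?_⟩
  · intro ρ h0 h1
    have : ρ = 0 := by
      push_cast at h1
      omega
    simp [this]
  · intro ρ h
    have : ρ ≠ 0 := by omega
    simp [this]
  · intro ρ h
    have : ρ ≠ 0 := by
      push_cast at h
      omega
    simp [this]
  · intro ρ h0 h1 x y z
    have : ρ = 0 := by
      push_cast at h1
      omega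
    subst this
    norm_num

theorem good_gamma {N : ℕ} {w l q : ℤ → ℝ} (hG : Good N w l q) (ρ : ℤ) :
    w ρ * q ρ ≤ l ρ ^ 2 := by
  obtain ⟨hpos, hneg, hbig, hS⟩ := hG
  by_cases h0 : ρ < 0
  · rw [(hneg ρ h0).1, (hneg ρ h0).2.1]
    simp
  · by_cases h1 : (N : ℤ) < ρ
    · rw [(hbig ρ h1).1, (hbig ρ h1).2.1]
      simp
    · have := hS ρ (by omega) (by omega) 0 0 1
      nlinarith [this]

/-- The column step: the invariant is preserved when a column of capacity `C` and weight `t`
is added. -/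
theorem good_step {N : ℕ} {w l q : ℤ → ℝ} (hG : Good N w l q) (C : ℕ) (t : ℝ) :
    Good (N + C) (addW C w) (addL C t w l) (addQ C t w l q) := by
  have hnn := hG.nonneg
  have hG' := hG
  obtain ⟨hpos, hneg, hbig, hS⟩ := hG
  refine ⟨?_, ?_, ?_, ?_⟩
  · intro r hr0 hrN
    push_cast at hrN
    unfold addW
    apply sum_pos'
    · intro k _
      exact hnn _
    · refine ⟨(r - min r N).toNat, ?_, ?_⟩
      · simp only [mem_range]
        omega
      · apply hpos <;> omega
  · intro r hr
    refine ⟨?_, ?_, ?_⟩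
    · unfold addW
      apply sum_eq_zero
      intro k _
      exact (hneg _ (by omega)).1
    · unfold addL
      rw [sum_eq_zero (fun k _ => (hneg _ (by omega)).2.1), (hneg (r - C) (by omega)).1]
      ring
    · unfold addQ
      rw [sum_eq_zero (fun k _ => (hneg _ (by omega)).2.2), (hneg (r - C) (by omega)).2.1,
        (hneg (r - C) (by omega)).1]
      by_cases hC : 1 ≤ C
      · rw [if_pos hC, (hneg (r - C + 1) (by omega)).1]
        ring
      · rw [if_neg hC]
        ring
  · intro r hr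
    push_cast at hr
    refine ⟨?_, ?_, ?_⟩
    · unfold addW
      apply sum_eq_zero
      intro k hk
      have := mem_range.mp hk
      exact (hbig _ (by omega)).1
    · unfold addL
      rw [sum_eq_zero (fun k hk => (hbig _ (by have := mem_range.mp hk; omega)).2.1),
        (hbig (r - C) (by omega)).1]
      ring
    · unfold addQ
      rw [sum_eq_zero (fun k hk => (hbig _ (by have := mem_range.mp hk; omega)).2.2),
        (hbig (r - C) (by omega)).2.1, (hbig (r - C) (by omega)).1,
        (hbig (r - C + 1) (by omega)).1]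
      simp
  · intro r hr0 hrN x y z
    push_cast at hrN
    have hT := tnew_eq C t w l q r x y z
    have hX := xinew_eq C t w l r x y z
    show addW C w r * Tq (addW C w) (addL C t w l) (addQ C t w l q) r x y z
      ≤ (xi (addW C w) (addL C t w l) r x y z) ^ 2
    rw [hT, hX]
    -- vanishing facts for the old forms
    have hTbig : ∀ ρ : ℤ, (N : ℤ) < ρ → Tq w l q ρ x y z = 0 := by
      intro ρ h
      unfold Tq
      rw [(hbig ρ h).1, (hbig ρ h).2.1, (hbig ρ h).2.2, (hbig (ρ + 1) (by omega)).1,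
        (hbig (ρ + 1) (by omega)).2.1, (hbig (ρ + 2) (by omega)).1]
      ring
    have hXbig : ∀ ρ : ℤ, (N : ℤ) < ρ → xi w l ρ x y z = 0 := by
      intro ρ h
      unfold xi
      rw [(hbig ρ h).1, (hbig ρ h).2.1, (hbig (ρ + 1) (by omega)).1]
      ring
    have hTlow : ∀ ρ : ℤ, ρ ≤ -3 → Tq w l q ρ x y z = 0 := by
      intro ρ h
      unfold Tq
      rw [(hneg ρ (by omega)).1, (hneg ρ (by omega)).2.1, (hneg ρ (by omega)).2.2,
        (hneg (ρ + 1) (by omega)).1, (hneg (ρ + 1) (by omega)).2.1, (hneg (ρ + 2) (by omega)).1]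
      ring
    have hXlow : ∀ ρ : ℤ, ρ ≤ -2 → xi w l ρ x y z = 0 := by
      intro ρ h
      unfold xi
      rw [(hneg ρ (by omega)).1, (hneg ρ (by omega)).2.1, (hneg (ρ + 1) (by omega)).1]
      ring
    have hm1 := hneg (-1) (by norm_num)
    have hm2 := hneg (-2) (by norm_num)
    have hT1 : Tq w l q (-1) x y z = 2 * w 0 * x * y + w 1 * y ^ 2 + 2 * l 0 * y * z := by
      unfold Tq
      rw [hm1.1, hm1.2.1, hm1.2.2, show (-1 : ℤ) + 1 = 0 by norm_num,
        show (-1 : ℤ) + 2 = 1 by norm_num]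
      ring
    have hT2 : Tq w l q (-2) x y z = w 0 * y ^ 2 := by
      unfold Tq
      rw [show (-2 : ℤ) + 1 = -1 by norm_num, show (-2 : ℤ) + 2 = 0 by norm_num,
        hm2.1, hm2.2.1, hm2.2.2, hm1.1, hm1.2.1]
      ring
    have hX1 : xi w l (-1) x y z = w 0 * y := by
      unfold xi
      rw [show (-1 : ℤ) + 1 = 0 by norm_num, hm1.1, hm1.2.1]
      ring
    rcases Nat.eq_zero_or_pos C with hC0 | hCpos
    · -- capacity zero
      subst hC0
      have h := hS r hr0 (by omega) x y z
      rw [if_neg (by norm_num)]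
      simp only [addW, zero_add, sum_range_one, Nat.cast_zero, sub_zero]
      unfold Tq xi
      nlinarith [h]
    · have hC1 : 1 ≤ C := hCpos
      rw [if_pos hC1]
      by_cases ha : 0 ≤ r - (C : ℤ)
      · -- the window starts inside the support
        set m : ℕ := (min r (N : ℤ) - (r - C)).toNat with hm
        have hmle : r - (C : ℤ) + (m : ℤ) = min r (N : ℤ) := by omega
        have hW : addW C w r = ∑ i ∈ range (m + 1), w (r - C + i) := by
          unfold addW
          exact sum_range_window w C r (r - C) m le_rfl (by omega)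
            (fun ρ h1 h2 => absurd h1 (by omega))
            (fun ρ h1 h2 => (hbig ρ (by omega)).1)
        have hTs : ∑ k ∈ range (C + 1), Tq w l q (r - k) x y z
            = ∑ i ∈ range (m + 1), Tq w l q (r - C + i) x y z :=
          sum_range_window (fun ρ => Tq w l q ρ x y z) C r (r - C) m le_rfl (by omega)
            (fun ρ h1 h2 => absurd h1 (by omega))
            (fun ρ h1 h2 => hTbig ρ (by omega))
        have hXs : ∑ k ∈ range (C + 1), xi w l (r - k) x y z
            = ∑ i ∈ range (m + 1), xi w l (r - C + i) x y z :=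
          sum_range_window (fun ρ => xi w l ρ x y z) C r (r - C) m le_rfl (by omega)
            (fun ρ h1 h2 => absurd h1 (by omega))
            (fun ρ h1 h2 => hXbig ρ (by omega))
        rw [hW, hTs, hXs]
        exact window_good hG' (r - C) m ha (by omega) (t * z) x y z
      · -- the window starts below the support
        set m : ℕ := (min r (N : ℤ)).toNat with hm
        have hmle : (m : ℤ) = min r (N : ℤ) := by omega
        have hW : addW C w r = ∑ i ∈ range (m + 1), w (0 + i) := by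
          unfold addW
          exact sum_range_window w C r 0 m (by omega) (by omega)
            (fun ρ h1 h2 => (hneg ρ h2).1)
            (fun ρ h1 h2 => (hbig ρ (by omega)).1)
        have key := window_good hG' 0 m le_rfl (by omega) y x y z
        have hWnn : 0 ≤ ∑ i ∈ range (m + 1), w (0 + i) := sum_nonneg (fun i _ => hnn _)
        have hw0 : 0 ≤ w 0 := hnn 0
        have hx0 : xi w l 0 x y z = w 0 * x + w 1 * y + l 0 * z := by
          unfold xi
          rw [show (0 : ℤ) + 1 = 1 by norm_num]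
        rw [hx0, show (0 : ℤ) + 1 = 1 by norm_num] at key
        by_cases ha1 : r - (C : ℤ) = -1
        · have hTs : ∑ k ∈ range (C + 1), Tq w l q (r - k) x y z
              = ∑ i ∈ range (m + 1), Tq w l q (0 + i) x y z + Tq w l q (-1) x y z := by
            rw [← peel1 (fun ρ => Tq w l q ρ x y z) m]
            exact sum_range_window (fun ρ => Tq w l q ρ x y z) C r (-1) (m + 1) (by omega)
              (by push_cast; omega)
              (fun ρ h1 h2 => absurd h1 (by omega))
              (fun ρ h1 h2 => hTbig ρ (by push_cast at h1; omega))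
          have hXs : ∑ k ∈ range (C + 1), xi w l (r - k) x y z
              = ∑ i ∈ range (m + 1), xi w l (0 + i) x y z + xi w l (-1) x y z := by
            rw [← peel1 (fun ρ => xi w l ρ x y z) m]
            exact sum_range_window (fun ρ => xi w l ρ x y z) C r (-1) (m + 1) (by omega)
              (by push_cast; omega)
              (fun ρ h1 h2 => absurd h1 (by omega))
              (fun ρ h1 h2 => hXbig ρ (by push_cast at h1; omega))
          rw [hW, hTs, hXs, ha1, hT1, hX1, hm1.1, show (-1 : ℤ) + 1 = 0 by norm_num]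
          nlinarith [key, mul_nonneg hWnn (mul_nonneg hw0 (sq_nonneg (y - t * z)))]
        · have ha2 : r - (C : ℤ) ≤ -2 := by omega
          have hTs : ∑ k ∈ range (C + 1), Tq w l q (r - k) x y z
              = ∑ i ∈ range (m + 1), Tq w l q (0 + i) x y z + Tq w l q (-1) x y z
                + Tq w l q (-2) x y z := by
            rw [← peel2 (fun ρ => Tq w l q ρ x y z) m]
            exact sum_range_window (fun ρ => Tq w l q ρ x y z) C r (-2) (m + 1 + 1) (by omega)
              (by push_cast; omega)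
              (fun ρ h1 h2 => hTlow ρ (by omega))
              (fun ρ h1 h2 => hTbig ρ (by push_cast at h1; omega))
          have hXs : ∑ k ∈ range (C + 1), xi w l (r - k) x y z
              = ∑ i ∈ range (m + 1), xi w l (0 + i) x y z + xi w l (-1) x y z
                + xi w l (-2) x y z := by
            rw [← peel2 (fun ρ => xi w l ρ x y z) m]
            exact sum_range_window (fun ρ => xi w l ρ x y z) C r (-2) (m + 1 + 1) (by omega)
              (by push_cast; omega)
              (fun ρ h1 h2 => hXlow ρ (by omega))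
              (fun ρ h1 h2 => hXbig ρ (by push_cast at h1; omega))
          rw [hW, hTs, hXs, hT1, hT2, hX1, hXlow (-2) le_rfl, hXlow (r - C) ha2,
            (hneg (r - C) (by omega)).1, (hneg (r - C + 1) (by omega)).1]
          nlinarith [key]

end Vale.Agent.Lib.P328.helper57
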