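import Mathlib

namespace Vale.Agent.Lib.P328.helper57

open Finset

/-- One step of the weighted Cauchy-Schwarz inequality along a path. -/
theorem amgm_step {A d P Q r ε : ℝ} (hA : A ^ 2 ≤ P * Q) (hd : d ^ 2 ≤ r * ε)
    (hP : 0 ≤ P) (hQ : 0 ≤ Q) (hr : 0 ≤ r) (hε : 0 ≤ ε) :
    (A + d) ^ 2 ≤ (P + r) * (Q + ε) := by
  have h1 : (2 * A * d) ^ 2 ≤ (P * ε + Q * r) ^ 2 := by
    have h0 : A ^ 2 * d ^ 2 ≤ (P * Q) * (r * ε) :=
      mul_le_mul hA hd (sq_nonneg d) (mul_nonneg hP hQ)
    nlinarith [sq_nonneg (P * ε - Q * r)]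
  have h2 : 0 ≤ P * ε + Q * r := by positivity
  have h3 := abs_le_of_sq_le_sq' h1 h2
  nlinarith [h3.2]

/-- Window lemma (weighted variance of a sequence with controlled increments),
window shifted to the indices `0..d`, ratios `R k = w (k+1) / w k` given as data. -/
theorem window (d : ℕ) (w R φ0 e : ℕ → ℝ) (σ : ℝ)
    (hw : ∀ k, k ≤ d → 0 < w k) (hwd : 0 ≤ w (d + 1))
    (hR : ∀ k, k ≤ d → R k * w k = w (k + 1))
    (hmono : ∀ k, k < d → R (k + 1) ≤ R k)
    (he : ∀ k, k < d → 0 ≤ e k)
    (hinc : ∀ k, k < d → (φ0 (k + 1) - φ0 k) ^ 2 ≤ (R k - R (k + 1)) * e k) :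
    (∑ k ∈ range (d + 1), w k) *
        (∑ k ∈ range (d + 1), w k * (φ0 k + if k = 0 then σ else 0) ^ 2)
      - (∑ k ∈ range (d + 1), w k * (φ0 k + if k = 0 then σ else 0)) ^ 2
    ≤ (∑ k ∈ range (d + 1), w k) * (∑ k ∈ range d, w (k + 1) * e k + σ ^ 2 * w 1) := by
  classical
  -- running sums of e
  set E : ℕ → ℝ := fun k => ∑ i ∈ range k, e i with hE
  have hE0 : E 0 = 0 := by simp [hE]
  have hEs : ∀ k, E (k + 1) = E k + e k := fun k => by simp [hE, sum_range_succ]
  set φ : ℕ → ℝ := fun k => φ0 k + if k = 0 then σ else 0 with hφ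
  -- pair bounds, j ≥ 1 style (no σ)
  have pb1 : ∀ j k, j ≤ k → k ≤ d →
      (φ0 k - φ0 j) ^ 2 ≤ (R j - R k) * (E k - E j) ∧ 0 ≤ R j - R k ∧ 0 ≤ E k - E j := by
    intro j k hjk
    induction k, hjk using Nat.le_induction with
    | base => intro _; simp
    | succ k hjk ih =>
      intro hk
      obtain ⟨h1, h2, h3⟩ := ih (by omega)
      have hk' : k < d := by omega
      have hr : 0 ≤ R k - R (k + 1) := by linarith [hmono k hk']
      have hek := he k hk'
      refine ⟨?_, by linarith, by rw [hEs]; linarith⟩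
      have := amgm_step h1 (hinc k hk') h2 h3 hr hek
      rw [hEs]
      calc (φ0 (k + 1) - φ0 j) ^ 2 = (φ0 k - φ0 j + (φ0 (k + 1) - φ0 k)) ^ 2 := by ring
        _ ≤ (R j - R k + (R k - R (k + 1))) * (E k - E j + e k) := this
        _ = (R j - R (k + 1)) * (E k + e k - E j) := by ring
  -- pair bounds from index 0 (with σ)
  have pb0 : ∀ k, k ≤ d →
      (φ0 k - φ0 0 - σ) ^ 2 ≤ (1 + R 0 - R k) * (σ ^ 2 + E k) := by
    intro k
    induction k with
    | zero => intro _; rw [hE0]; nlinarith
    | succ k ih =>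
      intro hk
      have hk' : k < d := by omega
      have h1 := ih (by omega)
      obtain ⟨-, h2, h3⟩ := pb1 0 k (Nat.zero_le _) (by omega)
      rw [hE0] at h3
      have hr : 0 ≤ R k - R (k + 1) := by linarith [hmono k hk']
      have hek := he k hk'
      have hq : 0 ≤ σ ^ 2 + E k := by
        have := sq_nonneg σ
        linarith
      have := amgm_step h1 (hinc k hk') (by linarith) hq hr hek
      rw [hEs]
      calc (φ0 (k + 1) - φ0 0 - σ) ^ 2 = (φ0 k - φ0 0 - σ + (φ0 (k + 1) - φ0 k)) ^ 2 := by ring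
        _ ≤ (1 + R 0 - R k + (R k - R (k + 1))) * (σ ^ 2 + E k + e k) := this
        _ = (1 + R 0 - R (k + 1)) * (σ ^ 2 + (E k + e k)) := by ring
  -- combined pair bound
  have pb : ∀ i b, i ≤ b → b + 1 ≤ d →
      (φ (b + 1) - φ i) ^ 2 ≤
        ((if i = 0 then 1 else 0) + R i - R (b + 1)) *
          ((if i = 0 then σ ^ 2 else 0) + E (b + 1) - E i) := by
    intro i b hib hb
    by_cases hi : i = 0
    · subst hi
      have := pb0 (b + 1) hb
      simp only [hφ, if_true, Nat.succ_ne_zero, if_false, add_zero, hE0, sub_zero]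
      calc (φ0 (b + 1) - (φ0 0 + σ)) ^ 2 = (φ0 (b + 1) - φ0 0 - σ) ^ 2 := by ring
        _ ≤ _ := this
    · have := (pb1 i (b + 1) (by omega) hb).1
      simp only [hφ, hi, Nat.succ_ne_zero, if_false, add_zero, zero_add]
      exact this
  -- closed form of the weighted sum of the pair bounds
  have hG : ∀ b, b ≤ d → ∀ ρ ε : ℝ,
      ∑ i ∈ range (b + 1), w i * (((if i = 0 then 1 else 0) + R i - ρ) *
          ((if i = 0 then σ ^ 2 else 0) + ε - E i))
        = σ ^ 2 * (w 0 + w 1 - ρ * w 0) + ε * (∑ i ∈ range (b + 1), w i + w (b + 1))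
          - ∑ i ∈ range (b + 1), w (i + 1) * E i
          - ρ * (ε * ∑ i ∈ range (b + 1), w i - ∑ i ∈ range (b + 1), w i * E i) := by
    intro b
    induction b with
    | zero =>
      intro _ ρ ε
      have h0 := hR 0 (Nat.zero_le _)
      simp only [zero_add, sum_range_one, if_true, hE0]
      linear_combination (σ ^ 2 + ε) * h0
    | succ b ih =>
      intro hb ρ ε
      have h1 := hR (b + 1) hb
      rw [sum_range_succ, ih (by omega) ρ ε, sum_range_succ _ (b + 1),
        sum_range_succ (fun i => w (i + 1) * E i) (b + 1),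
        sum_range_succ (fun i => w i * E i) (b + 1)]
      simp only [Nat.succ_ne_zero, if_false, zero_add]
      linear_combination (ε - E (b + 1)) * h1
  -- relation between the sums
  have hC : ∀ b, ∑ k ∈ range b, w (k + 1) * e k
      = ∑ i ∈ range (b + 1), w i * E i - ∑ i ∈ range (b + 1), w (i + 1) * E i
        + w (b + 1) * E b := by
    intro b
    induction b with
    | zero => simp [hE0]
    | succ b ih =>
      rw [sum_range_succ, ih, sum_range_succ (fun i => w i * E i) (b + 1),
        sum_range_succ (fun i => w (i + 1) * E i) (b + 1), hEs]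
      ring
  -- main induction with the exact upper bound
  have main : ∀ b, b ≤ d →
      (∑ k ∈ range (b + 1), w k) * (∑ k ∈ range (b + 1), w k * φ k ^ 2)
        - (∑ k ∈ range (b + 1), w k * φ k) ^ 2
      ≤ σ ^ 2 * (w 1 * (∑ k ∈ range (b + 1), w k) - w 0 * w (b + 1))
        + (∑ k ∈ range (b + 1), w k) * (∑ k ∈ range b, w (k + 1) * e k)
        - w (b + 1) * ((∑ k ∈ range (b + 1), w k) * E b - ∑ k ∈ range (b + 1), w k * E k) := by
    intro b
    induction b with
    | zero =>
      intro _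
      simp only [zero_add, sum_range_one, range_zero, sum_empty, hE0]
      nlinarith
    | succ b ih =>
      intro hb
      have ihb := ih (by omega)
      have hw' : 0 < w (b + 1) := hw _ hb
      have hRb := hR (b + 1) hb
      -- Lagrange increment
      have hexp : ∑ i ∈ range (b + 1), w i * (φ (b + 1) - φ i) ^ 2
          = φ (b + 1) ^ 2 * (∑ i ∈ range (b + 1), w i)
            - 2 * φ (b + 1) * (∑ i ∈ range (b + 1), w i * φ i)
            + ∑ i ∈ range (b + 1), w i * φ i ^ 2 := by
        rw [mul_sum, mul_sum, ← sum_sub_distrib, ← sum_add_distrib]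
        apply sum_congr rfl
        intro i _
        ring
      have hbound : ∑ i ∈ range (b + 1), w i * (φ (b + 1) - φ i) ^ 2
          ≤ ∑ i ∈ range (b + 1), w i * (((if i = 0 then 1 else 0) + R i - R (b + 1)) *
              ((if i = 0 then σ ^ 2 else 0) + E (b + 1) - E i)) := by
        apply sum_le_sum
        intro i hi
        have hi' : i ≤ b := by
          have := mem_range.mp hi
          omega
        exact mul_le_mul_of_nonneg_left (pb i b hi' hb) (hw i (by omega)).le
      rw [hG b (by omega), hexp] at hbound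
      have hCb := hC b
      have hEb := hEs b
      rw [sum_range_succ _ (b + 1), sum_range_succ (fun k => w k * φ k ^ 2) (b + 1),
        sum_range_succ (fun k => w k * φ k) (b + 1), sum_range_succ (fun k => w (k + 1) * e k) b,
        sum_range_succ (fun k => w k * E k) (b + 1)]
      rw [hEb] at hbound ⊢
      generalize (∑ k ∈ range (b + 1), w k) = S0 at *
      generalize (∑ k ∈ range (b + 1), w k * φ k) = S1 at *
      generalize (∑ k ∈ range (b + 1), w k * φ k ^ 2) = S2 at *
      generalize (∑ k ∈ range b, w (k + 1) * e k) = Cb at *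
      generalize (∑ k ∈ range (b + 1), w k * E k) = Ab at *
      generalize (∑ k ∈ range (b + 1), w (k + 1) * E k) = Bb at *
      have hid : σ ^ 2 * (w 1 * (S0 + w (b + 1)) - w 0 * w (b + 1 + 1))
            + (S0 + w (b + 1)) * (Cb + w (b + 1) * e b)
            - w (b + 1 + 1) * ((S0 + w (b + 1)) * (E b + e b) - (Ab + w (b + 1) * (E b + e b)))
          = (σ ^ 2 * (w 1 * S0 - w 0 * w (b + 1)) + S0 * Cb - w (b + 1) * (S0 * E b - Ab))
            + w (b + 1) * (σ ^ 2 * (w 0 + w 1 - R (b + 1) * w 0) + (E b + e b) * (S0 + w (b + 1))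
                - Bb - R (b + 1) * ((E b + e b) * S0 - Ab)) := by
        linear_combination (σ ^ 2 * w 0 + (E b + e b) * S0 - Ab) * hRb + w (b + 1) * hCb
      have hmul := mul_le_mul_of_nonneg_left hbound hw'.le
      have hlhs : (S0 + w (b + 1)) * (S2 + w (b + 1) * φ (b + 1) ^ 2)
            - (S1 + w (b + 1) * φ (b + 1)) ^ 2
          = (S0 * S2 - S1 ^ 2)
            + w (b + 1) * (φ (b + 1) ^ 2 * S0 - 2 * φ (b + 1) * S1 + S2) := by ring
      rw [hid, hlhs]
      linarith
  have hfin := main d le_rfl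
  have hslack : 0 ≤ (∑ k ∈ range (d + 1), w k) * E d - ∑ k ∈ range (d + 1), w k * E k := by
    rw [sum_mul, ← sum_sub_distrib]
    apply sum_nonneg
    intro k hk
    have hk' : k ≤ d := by
      have := mem_range.mp hk
      omega
    have := (pb1 k d hk' le_rfl).2.2
    have := (hw k hk').le
    nlinarith
  have hw0 : 0 ≤ w 0 := (hw 0 (Nat.zero_le _)).le
  have hW : 0 ≤ ∑ k ∈ range (d + 1), w k :=
    sum_nonneg (fun k hk => (hw k (by have := mem_range.mp hk; omega)).le)
  nlinarith [mul_nonneg hwd hslack, mul_nonneg (mul_nonneg (sq_nonneg σ) hw0) hwd]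

end Vale.Agent.Lib.P328.helper57
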